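import Vale.Agent.P067.Full.Final

/-!
# P067: bounded-degree coboundary expanders in every dimension
-/

open Vale.Agent.P067

theorem Vale.Agent.Results.P067.CoboundaryExpanders.result :
    ∀ d : ℕ, 1 ≤ d → ∃ (D : ℕ) (ε : ℝ), 0 < ε ∧ ∀ N : ℕ,
      ∃ (V : Type) (_ : Fintype V) (_ : DecidableEq V) (X : PureComplex V d),
        N ≤ Fintype.card V ∧ X.DegreeLE D ∧ X.IsCoboundaryExpander ε ∧
          ∀ f : X.Cochain 0, X.delta 0 f = 0 → X.IsBoundary 0 f :=
  Full.fullSpec
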