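import Vale.Agent.P067.Main

/-!
# Bounded-degree expanders have linearly large top cohomology
-/

open Vale.Agent.P067

theorem Vale.Agent.Results.P067.LinearTopCohomology.result :
    ∀ (e D : ℕ) (ε : ℝ), 0 < ε → ∃ c : ℝ, 0 < c ∧ ∃ N : ℕ,
      ∀ (V : Type) [Fintype V] [DecidableEq V] (X : PureComplex V (e + 1)),
        N ≤ Fintype.card V → X.DegreeLE D →
          X.IsCoboundaryExpander ε ∨ X.IsCosystolicExpander ε →
            c * Fintype.card V ≤ X.topBetti := by
  intro e D ε hε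
  obtain ⟨A, hA⟩ : ∃ A : ℝ,
      A = 2 ^ (e + 1 + 1) * D / ε * (1 + D * 2 ^ (e + 1 + 1)) + 1 := ⟨_, rfl⟩
  obtain ⟨T, hT⟩ : ∃ T : ℝ, T = (1 + D * 2 ^ (e + 1 + 1) * A ^ (e + 1)) * D * (1 + 1 / ε) + 1 :=
    ⟨_, rfl⟩
  have hA1 : 1 ≤ A := hA ▸ le_add_of_nonneg_left (by positivity)
  have hA0 : 0 < A := zero_lt_one.trans_le hA1
  have hT1 : 1 ≤ T := hT ▸ le_add_of_nonneg_left (by positivity)
  have hT0 : 0 < T := zero_lt_one.trans_le hT1
  refine ⟨1 / (2 * T * (e + 2)), by positivity, ⌈2 * T * (e + 2)⌉₊ + 1, ?_⟩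
  intro V _ _ X hn hD hX
  have : Nonempty V := Fintype.card_pos_iff.1 (by omega)
  have hX' : X.IsCosystolicExpander ε := hX.elim (X.isCosystolic_of_coboundary hε) id
  have hn' : 2 * T * (e + 2) < (Fintype.card V : ℝ) :=
    lt_of_le_of_lt (Nat.le_ceil _) (by exact_mod_cast hn)
  have h2 : (Fintype.card V : ℝ) ≤ (e + 2) * X.facets.card := by
    exact_mod_cast X.card_vertices_le
  by_contra hc
  rw [not_le] at hc
  rw [div_mul_eq_mul_div, one_mul, lt_div_iff₀ (by positivity)] at hc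
  have hmain : T * (1 + (X.topBetti : ℝ)) < X.facets.card := by
    refine lt_of_mul_lt_mul_left (a := ((e : ℝ) + 2)) ?_ (by positivity)
    have : ((e : ℝ) + 2) * (T * (1 + (X.topBetti : ℝ))) =
        (2 * T * (e + 2) + (X.topBetti : ℝ) * (2 * T * (e + 2))) / 2 := by ring
    rw [this]
    linarith
  have hkey : ∀ m ≤ e, (1 + D * 2 ^ (e + 1 + 1) *
      PureComplex.fillConst (e + 1) D ε X.topBetti m) * D * (1 + 1 / ε) < X.facets.card := by
    intro m hm
    refine lt_of_le_of_lt ?_ hmain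
    have h3 : PureComplex.fillConst (e + 1) D ε X.topBetti m ≤
        A ^ (e + 1) * (1 + (X.topBetti : ℝ)) := by
      refine (hA ▸ PureComplex.fillConst_le (e + 1) D hε X.topBetti m).trans ?_
      exact mul_le_mul_of_nonneg_right (pow_le_pow_right₀ hA1 (by omega)) (by positivity)
    calc (1 + (D : ℝ) * 2 ^ (e + 1 + 1) * PureComplex.fillConst (e + 1) D ε X.topBetti m) * D *
          (1 + 1 / ε)
        ≤ (1 + (D : ℝ) * 2 ^ (e + 1 + 1) * A ^ (e + 1)) * (1 + (X.topBetti : ℝ)) * D *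
          (1 + 1 / ε) := by
          gcongr
          rw [add_mul, one_mul, mul_assoc ((D : ℝ) * 2 ^ (e + 1 + 1))]
          exact add_le_add (le_add_of_nonneg_right (Nat.cast_nonneg _))
            (mul_le_mul_of_nonneg_left h3 (by positivity))
      _ = (T - 1) * (1 + (X.topBetti : ℝ)) := by rw [hT]; ring
      _ ≤ T * (1 + (X.topBetti : ℝ)) := mul_le_mul_of_nonneg_right (by linarith) (by positivity)
  have hε' : (0 : ℝ) ≤ 1 / ε := by positivity
  refine X.not_all_small hε rfl hD hX' X.topBetti_eq.symm (fun m hm => ?_) ?_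
  · have h4 := hkey m hm
    have h5 : (1 + (D : ℝ) * 2 ^ (e + 1 + 1) *
        PureComplex.fillConst (e + 1) D ε X.topBetti m) * D * (1 / ε) < X.facets.card := by
      refine lt_of_le_of_lt ?_ h4
      have := PureComplex.fillConst_nonneg (e + 1) D hε X.topBetti m
      exact mul_le_mul_of_nonneg_left (by linarith) (by positivity)
    rw [mul_one_div, div_lt_iff₀ hε] at h5
    linarith
  · refine lt_of_le_of_lt ?_ (hkey e le_rfl)
    have := PureComplex.fillConst_nonneg (e + 1) D hε X.topBetti e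
    exact le_mul_of_one_le_right (by positivity) (by linarith)
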